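import Vale.Agent.P235.ST.H317.Defs

/-! P235, (ST) O(1), row r1: band walks, lines inside a band, a middle offset. helper100. -/

namespace Vale.Agent.P235.STO.H100

open SimpleGraph

variable {V : Type} (W : LWorld V)

theorem walk_of_walk (k m : ℕ) {x y : V} (g : W.G.Walk x y)
    (h : ∀ z ∈ g.support, W.bi k m z = W.bi k m x) :
    ∃ q : (W.Bg k m).Walk x y, q.length = g.length := by
  induction g with
  | nil => exact ⟨Walk.nil, rfl⟩
  | @cons a b c hab p ih =>
    have hb : W.bi k m b = W.bi k m a := h b (by simp [Walk.support_cons])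
    obtain ⟨q, hq⟩ := ih (fun z hz => by
      rw [h z (by rw [Walk.support_cons]; exact List.mem_cons_of_mem _ hz), hb])
    have hadj : (W.Bg k m).Adj a b := ⟨hab, hb.symm⟩
    exact ⟨Walk.cons hadj q, by rw [Walk.length_cons, Walk.length_cons, hq]⟩

theorem reach_of_walk (k m : ℕ) {x y : V} (g : W.G.Walk x y)
    (h : ∀ z ∈ g.support, W.bi k m z = W.bi k m x) :
    (W.Bg k m).Reachable x y ∧ (W.Bg k m).dist x y ≤ g.length := by
  obtain ⟨q, hq⟩ := walk_of_walk W k m g h
  exact ⟨⟨q⟩, hq ▸ dist_le q⟩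

theorem walk_to_walk (k m : ℕ) {x y : V} (g : (W.Bg k m).Walk x y) :
    W.bi k m x = W.bi k m y ∧ ∃ q : W.G.Walk x y, q.length = g.length := by
  induction g with
  | nil => exact ⟨rfl, Walk.nil, rfl⟩
  | @cons a b c hab p ih =>
    obtain ⟨h1, q, hq⟩ := ih
    exact ⟨hab.2.trans h1, Walk.cons hab.1 q, by rw [Walk.length_cons, Walk.length_cons, hq]⟩

theorem bi_of_reach (k m : ℕ) {x y : V} (h : (W.Bg k m).Reachable x y) :
    W.bi k m x = W.bi k m y ∧ W.G.dist x y ≤ (W.Bg k m).dist x y := by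
  obtain ⟨g, hg⟩ := h.exists_walk_length_eq_dist
  obtain ⟨h1, q, hq⟩ := walk_to_walk W k m g
  refine ⟨h1, ?_⟩
  rw [← hg, ← hq]
  exact dist_le q

theorem abs_u_le {x y : V} (g : W.G.Walk x y) : |W.u y - W.u x| ≤ (g.length : ℤ) := by
  induction g with
  | nil => simp
  | @cons a b c hab p ih =>
    have h1 := W.unit a b hab
    rw [Walk.length_cons]
    have h2 : |W.u c - W.u a| ≤ |W.u c - W.u b| + |W.u a - W.u b| := by
      have h3 := abs_sub_le (W.u c) (W.u b) (W.u a)
      rw [abs_sub_comm (W.u b) (W.u a)] at h3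
      exact h3
    push_cast
    omega

theorem reach_of_L_le (k m : ℕ) {p a b : V} (hp : p ∈ W.N) (ha : a ∈ W.L p) (hb : b ∈ W.L p)
    (h : W.bi k m a = W.bi k m b) (hab : W.u a ≤ W.u b) :
    (W.Bg k m).Reachable a b ∧ ((W.Bg k m).dist a b : ℤ) ≤ W.u b - W.u a := by
  classical
  obtain ⟨q, hq, -⟩ := W.L_path p hp a ha b hb hab
  have key : ∀ z ∈ q.support, W.bi k m z = W.bi k m a := by
    intro z hz
    have h1 := abs_u_le W (q.takeUntil z hz)
    have h2 := abs_u_le W (q.dropUntil z hz)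
    have h3 : (q.takeUntil z hz).length + (q.dropUntil z hz).length = q.length := by
      rw [← Walk.length_append, Walk.take_spec]
    have h4 : W.u a ≤ W.u z ∧ W.u z ≤ W.u b := by
      rw [abs_le] at h1 h2
      have h3' : ((q.takeUntil z hz).length : ℤ) + (q.dropUntil z hz).length = W.u b - W.u a := by
        rw [← hq, ← h3]
        push_cast
        rfl
      constructor <;> omega
    have ht : 0 < th k := by
      unfold th
      positivity
    have h5 : W.bi k m a ≤ W.bi k m z :=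
      Int.ediv_le_ediv ht (by have := h4.1; omega)
    have h6 : W.bi k m z ≤ W.bi k m b :=
      Int.ediv_le_ediv ht (by have := h4.2; omega)
    omega
  obtain ⟨h1, h2⟩ := reach_of_walk W k m q key
  refine ⟨h1, ?_⟩
  rw [← hq]
  exact_mod_cast h2

theorem reach_of_L (k m : ℕ) {p a b : V} (hp : p ∈ W.N) (ha : a ∈ W.L p) (hb : b ∈ W.L p)
    (h : W.bi k m a = W.bi k m b) :
    (W.Bg k m).Reachable a b ∧ ((W.Bg k m).dist a b : ℤ) ≤ |W.u a - W.u b| := by
  rcases le_total (W.u a) (W.u b) with hab | hab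
  · obtain ⟨h1, h2⟩ := reach_of_L_le W k m hp ha hb h hab
    refine ⟨h1, h2.trans ?_⟩
    rw [abs_sub_comm]
    exact le_abs_self _
  · obtain ⟨h1, h2⟩ := reach_of_L_le W k m hp hb ha h.symm hab
    refine ⟨h1.symm, ?_⟩
    rw [dist_comm]
    exact h2.trans (le_abs_self _)

theorem exists_mid (k : ℕ) (z : V) : ∃ m < 16, W.mid k m z := by
  have ht : (0 : ℤ) < 2 ^ k := by positivity
  obtain ⟨t, htd⟩ : ∃ t : ℤ, t = 2 ^ k := ⟨_, rfl⟩
  rw [← htd] at ht
  have hm0 : 0 ≤ (4 - W.u z / t) % 16 := Int.emod_nonneg _ (by norm_num)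
  have hm1 : (4 - W.u z / t) % 16 < 16 := Int.emod_lt_of_pos _ (by norm_num)
  have hr0 : 0 ≤ W.u z % t := Int.emod_nonneg _ ht.ne'
  have hr1 : W.u z % t < t := Int.emod_lt_of_pos _ ht
  have e1 : t * (W.u z / t) + W.u z % t = W.u z := Int.mul_ediv_add_emod _ _
  have e2 : 16 * ((4 - W.u z / t) / 16) + (4 - W.u z / t) % 16 = 4 - W.u z / t :=
    Int.mul_ediv_add_emod _ _
  refine ⟨((4 - W.u z / t) % 16).toNat, by omega, ?_⟩
  have hc : (((4 - W.u z / t) % 16).toNat : ℤ) = (4 - W.u z / t) % 16 := Int.toNat_of_nonneg hm0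
  have hp : W.pos k ((4 - W.u z / t) % 16).toNat z = 4 * t + W.u z % t := by
    unfold LWorld.pos th
    rw [hc, ← htd]
    have e3 : W.u z + (4 - W.u z / t) % 16 * t =
        (4 * t + W.u z % t) + (16 * t) * (-((4 - W.u z / t) / 16)) := by
      have e4 : (4 - W.u z / t) % 16 = 4 - W.u z / t - 16 * ((4 - W.u z / t) / 16) := by omega
      rw [e4]
      linear_combination (-1 : ℤ) * e1
    rw [e3, Int.add_mul_emod_self_left]
    exact Int.emod_eq_of_lt (by omega) (by omega)
  unfold LWorld.mid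
  rw [hp, ← htd]
  constructor <;> omega

end Vale.Agent.P235.STO.H100
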